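import Vale.Agent.P014U.Sb.Fc
import Vale.Agent.P014T.Sb.Ev2

/-! # P014U: the symbol of two Siegel units, in the words of the modular function field (helper42) -/

set_option autoImplicit false
set_option linter.all false

open Filter Topology Finset NumberField

noncomputable section

namespace Vale.Agent.P014U.Sb

export Vale.Agent.P014T.Sb (nz_row)

open Vale.Agent.P022 Vale.Agent.P022K Sy Sy.Fd
open Vale.Agent.P022D.W (dec)
open X4S.Ga (K O mem_O)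
open X4S.Aq
open X4F.Rc (hn hn_mul mq O_nat)
open Ah (Ind am)
open QT.Cu (E E_add E_nat E_zero E_int E_eq_one)

variable [Pp]

theorem ex_eps {n : ℕ} (n0 : 0 < n) : ∃ e : ℕ, ¬ pp ∣ e ∧ E (1 / pp ^ n) = ex (hn n * e) := by
  have p0 : (pp : ℚ) ≠ 0 := c_ne
  have a (k : ℕ) : E (1 / pp ^ n) ^ k = 1 ↔ ∃ m : ℤ, (k : ℚ) * (1 / pp ^ n) = m := by
    rw [← E_nat, E_eq_one]
  obtain ⟨e, he⟩ := ex_onto ((a (pp ^ n)).2 ⟨1, by simp [p0]⟩)
  refine ⟨e, fun ⟨k, hk⟩ => ?_, he⟩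
  obtain ⟨n, rfl⟩ := Nat.exists_eq_add_of_lt n0
  obtain ⟨m, hm⟩ := (a (pp ^ n)).1 (he ▸ ex_root.2 (O_of (O_nat k) (by
    rw [hk, zero_add]
    push_cast
    linear_combination (k : K) * hn_mul (n + 1))))
  have : (1 : ℤ) = pp * m := by
    rw [zero_add, pow_succ] at hm
    push_cast at hm
    field_simp at hm
    exact_mod_cast hm
  exact nd_one ⟨m, this⟩

theorem vf_lim {ι : Qb →+* ℂ_[pp]} {c l : ℕ} [NeZero l] (hc : c ^ 2 % 24 = 1) {a b : ZMod l}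
    (h : c * a ≠ 0) {t y : ℂ_[pp]} (h0 : t ≠ 0) (ht : ‖t‖ < 1)
    (e : P014T.Dc.Vf ι l t (P014T.Sg.sF c ![(a.val : ℚ) / l, (b.val : ℚ) / l]) y) :
    Tendsto (ap c l a.val (ι (E (1 / l)) ^ b.val) t) atTop (𝓝 y) := by
  rw [e.uniq (NeZero.pos l) (P014T.Dc.vf_sF hc a.val_lt (nz_row h _) h0 ht), ← map_pow, ← E_nat,
    mul_one_div]
  exact sv_lim ι _ ht (NeZero.pos l) (by rwa [← val_c, ZMod.val_ne_zero])

theorem eval2 {ι : Qb →+* ℂ_[pp]} {P : Ideal (𝓞 Qb)} (h : Ind ι P) (M n l : ℕ) (hl : l = M * pp ^ n)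
    (n0 : 0 < n) (M0 : 0 < M) (hM : 2 ∣ M) :
    ∃ e : ℤ, ¬ (pp : ℤ) ∣ e ∧ ∀ (c d : ℕ) (Y : Type) (α : GQ → Y → Y) (S : Finset Y) (τ : Y → K) (W : Y → ℤ)
    (v v' : Y → ZMod l × ZMod l) (t f g : Y → ℂ_[pp]), c ^ 2 % 24 = 1 → d ^ 2 % 24 = 1 →
    c.Coprime l → d.Coprime l → Ds (dec P) α S → Tw (dec P) α S n τ →
    f ∈ h.fd.G α S → g ∈ h.fd.G α S → (fun y => t y ^ l) ∈ h.fd.G α S →
    (fun y => ι (E (1 / l)) ^ (v y).2.val * t y ^ (v y).1.val) ∈ h.fd.G α S →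
    (fun y => ι (E (1 / l)) ^ (v' y).2.val * t y ^ (v' y).1.val) ∈ h.fd.G α S →
    (∀ j ∈ dec P, ∀ y ∈ S, W (α j y) = W y ∧ (v (α j y)).1 = (v y).1 ∧ (v' (α j y)).1 = (v' y).1) →
    (∀ y ∈ S, ‖t y‖ < 1 ∧ Gd (t y) ∧ (v y).1 ≠ 0 ∧ (v' y).1 ≠ 0 ∧
      IsUnit ((v y).1 * (v' y).2 - (v y).2 * (v' y).1) ∧
      hn n * (τ y * (((v y).1 * (v' y).2 - (v y).2 * (v' y).1).val : ℕ) - W y) ∈ O ∧
      P014T.Dc.Vf ι l (t y) (P014T.Sg.sF c ![((v y).1.val : ℚ) / l, ((v y).2.val : ℚ) / l]) (f y) ∧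
      P014T.Dc.Vf ι l (t y) (P014T.Sg.sF d ![((v' y).1.val : ℚ) / l, ((v' y).2.val : ℚ) / l]) (g y)) →
    ∃ θ : K, am θ = ∑ y ∈ S, W y * Lm (t y)
        (EE l (ι (E (1 / l))) c (v y) * EE l (ι (E (1 / l))) d (v' y)) ∧
      2 • h.fd.sym α S n τ f g = mq (2 * e * θ / (M * (pp ^ 2) ^ n)) := by
  obtain ⟨e, o, he⟩ := ex_eps n0
  refine ⟨e, by exact_mod_cast o,
    fun c d Y α S τ W v v' t f g hc hd cl dl D tw hf hg q u u' iv k => ?_⟩
  have l0 : l ≠ 0 := hl ▸ (mul_pos M0 (pow_pos pp_pos n)).ne'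
  have pl {c : ℕ} (cl : c.Coprime l) : ¬ pp ∣ c := fun k => one_lt.ne' (Nat.eq_one_of_dvd_coprimes cl k
    (hl ▸ (dvd_pow_self pp n0.ne').mul_left M))
  have : NeZero l := ⟨l0⟩
  have lq : (l : ℚ) ≠ 0 := Nat.cast_ne_zero.2 l0
  set ζ := ι (E (1 / l)) with hζ
  set δ := fun y => ((v y).1 * (v' y).2 - (v y).2 * (v' y).1).val
  have z1 : ζ ^ l = 1 := by
    rw [hζ, ← map_pow, ← E_nat, mul_one_div_cancel lq, ← Int.cast_one, E_int, map_one]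
  have z0 : ζ ≠ 0 := fun c => by simp [c, l0] at z1
  have t0 (y) (hy : y ∈ S) : t y ≠ 0 := ne_zero_pow l0 (q y hy).1
  have z2 (m : ℕ) : ζ ^ (M * m) = ι (ex (hn n * (e * m : ℕ))) := by
    rw [pow_mul, hζ, ← map_pow, ← E_nat, show (M : ℚ) * (1 / l) = 1 / pp ^ n by
      have : (M : ℚ) ≠ 0 := Nat.cast_ne_zero.2 M0.ne'
      have : (pp : ℚ) ≠ 0 := c_ne
      rw [hl]; push_cast; field_simp, he, ← map_pow, ← ex_nat]
    congr 2
    push_cast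
    ring
  have un (y) (hy : y ∈ S) : (e * δ y : ℕ) ≠ (0 : K) ∧ ((e * δ y : ℕ) : K)⁻¹ ∈ O := by
    have : ‖((e * δ y : ℕ) : K)‖ = 1 := n_odd k_two fun c => (pp_prime.dvd_mul.1 c).elim o
      (pl ((ZMod.isUnit_iff_coprime _ l).1 (by simpa [δ] using (k y hy).2.2.2.2.1)))
    exact ⟨norm_ne_zero_iff.1 (by simp only [this, ne_eq, one_ne_zero, not_false_eq_true]),
      by rw [mem_O, norm_inv, this, inv_one]⟩
  have zG : (fun y => ζ ^ (M * δ y)) ∈ h.fd.G α S := G_congr D (pow_mem (mul_mem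
    (Fd.G_zpow (w := fun y => (v y).1.val) u' fun j hj y hy => by rw [(iv j hj y hy).2.1])
    (G_inv (Fd.G_zpow (w := fun y => (v' y).1.val) u fun j hj y hy => by rw [(iv j hj y hy).2.2])))
    M) fun y hy => by
      have := t0 y hy
      rw [mul_comm M, pow_mul, Pi.pow_apply]
      congr 1
      simp only [Pi.mul_apply, Pi.inv_apply, zpow_natCast, mul_pow, ← pow_mul]
      rw [← zt_eq z1 (a := δ y + (v y).2.val * (v' y).1.val) (b := (v' y).2.val * (v y).1.val)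
        (by simp [δ, mul_comm]), pow_add, mul_comm (v y).1.val]
      field_simp
  have t' : Tw (dec P) α S n fun y => ((e * δ y : ℕ) : K)⁻¹ := ⟨fun y hy => (un y hy).2,
    fun j hj y hy => by
      have m := D.mem j hj y hy
      have := (zG y hy).2.2 j hj
      simp only [z2] at this
      refine O_of (O_mul (O_mul (un y hy).2 (un _ m).2)
        (ex_eq.1 (ι.injective ((h.fd.ex_act hj _).symm.trans this)))) ?_
      have := (un y hy).1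
      have := (un _ m).1
      field_simp⟩
  have nz {c : ℕ} (cl : c.Coprime l) {a : ZMod l} (ha : a ≠ 0) : c * a ≠ 0 :=
    ((ZMod.isUnit_iff_coprime c l).2 cl).mul_right_eq_zero.not.2 ha
  obtain ⟨θ, p, r⟩ := eval (hy h) D t' n0 hl z1 (pl cl) (pl dl)
    (ω := fun y => W y * e) (fun j hj y hy => ⟨(iv j hj y hy).2.1, (iv j hj y hy).2.2, by
      rw [(iv j hj y hy).1]⟩) (fun y hy => ⟨nz cl (k y hy).2.2.1, nz dl (k y hy).2.2.2.1⟩)
    (fun y hy => (k y hy).2.2.2.2.1) (fun y hy => (k y hy).1) (fun y hy => (k y hy).2.1) q u u'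
    (fun y hy => ⟨_, O_nat _, z2 _, by rw [mul_inv_cancel₀ (un y hy).1]; simp⟩) hf hg
    (fun y hy => vf_lim hc (nz cl (k y hy).2.2.1) (t0 y hy) (k y hy).1 (k y hy).2.2.2.2.2.2.1)
    fun y hy => vf_lim hd (nz dl (k y hy).2.2.2.1) (t0 y hy) (k y hy).1 (k y hy).2.2.2.2.2.2.2
  have e0 : (e : K) ≠ 0 := Nat.cast_ne_zero.2 (nd_ne o)
  have e1 : (e : ℂ_[pp]) ≠ 0 := Nat.cast_ne_zero.2 (nd_ne o)
  have m0 : (M : K) ≠ 0 := Nat.cast_ne_zero.2 M0.ne'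
  have m1 : (M : ℂ_[pp]) ≠ 0 := Nat.cast_ne_zero.2 M0.ne'
  have p0 : (pp : K) ≠ 0 := c_ne
  have p1 : (pp : ℂ_[pp]) ≠ 0 := c_ne
  refine ⟨θ * (M * (pp ^ 2) ^ n) / (2 * e), ?_, ?_⟩
  · simp only [map_div₀, map_mul, p, map_natCast, map_pow, map_ofNat, map_one, Int.cast_mul,
      Int.cast_natCast, mul_right_comm _ (e : ℂ_[pp]), ← sum_mul]
    field_simp
  · rw [show 2 * (e : ℤ) * (θ * (M * (pp ^ 2) ^ n) / (2 * e)) / (M * (pp ^ 2) ^ n) = θ by push_cast; field_simp, ← r]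
    refine congrArg _ (sym_congr D (t'.wt (w := fun y => (W y * e : ℤ)) (fun _ _ => O_z _)
      fun j hj y hy => by rw [(iv j hj y hy).1]) hf hg (fun _ _ => rfl) (fun _ _ => rfl) tw
      fun y hy => O_of (O_mul (O_mul (O_nat e) (un y hy).2) (k y hy).2.2.2.2.2.1) ?_)
    have := (un y hy).1
    push_cast at this ⊢
    have := right_ne_zero_of_mul this
    field_simp
    rfl

end Vale.Agent.P014U.Sb
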