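import Vale.Agent.P014U.Sb.Lg
import Vale.Agent.P014T.Sb.Lm

/-! # P014U: the value at `t` of the primitive of `f dX / X` (helper84) -/

set_option linter.all false

open Filter Topology IsUltrametricDist PowerSeries

noncomputable section

namespace Vale.Agent.P014U.Sb

export Vale.Agent.P014T.Sb (Hs Hs_eq Hs_dvd Hs_step Ig Hs_ig)

variable [Pp] {C : Type} [NormedField C]

/-- the value at `t` of the primitive of `f dX / X` -/
def Lm (t : C) (f : C⟦X⟧) : C := coeff 0 f * Lg t + ∑' k : ℕ, coeff k f * t ^ k / k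

variable {t ξ ξ' : C} {f g : C⟦X⟧} {R R' : ℕ}

theorem Lm_C (c : C) (f : C⟦X⟧) : Lm t (PowerSeries.C c * f) = c * Lm t f := by
  simp only [Lm, coeff_C_mul, mul_add, mul_assoc, mul_div_assoc, tsum_mul_left]

theorem Lm_neg (f : C⟦X⟧) : Lm t (-f) = -Lm t f := by simpa using Lm_C (t := t) (-1) f

theorem Lm_zero : Lm t 0 = 0 := by simp [Lm]

theorem Lm_one : Lm t 1 = Lg t := by
  rw [Lm, (tsum_congr fun k => by cases k <;> simp [coeff_one]).trans tsum_zero]
  simp

theorem Lm_Hs (h : 0 < R) : Lm t (Hs ξ R) = -lgs (1 - ξ * t ^ R) / R := by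
  rw [Lm, lgs, ← (mul_right_injective₀ h.ne').tsum_eq (f := fun k => coeff k (Hs ξ R) * t ^ k / k)
    fun k hk => ?_, neg_neg, ← tsum_div_const, Hs, coeff_mk, if_neg (by simp), zero_mul, zero_add]
  · refine tsum_congr fun k => ?_
    cases k with
    | zero => simp
    | succ k =>
      rw [coeff_mk, if_pos ⟨dvd_mul_right _ _, by positivity⟩, Nat.mul_div_cancel_left _ h,
        sub_sub_cancel, mul_pow, pow_mul, Nat.cast_mul, div_div, mul_comm (R : C)]
  · by_contra c
    rw [Function.mem_support, Hs, coeff_mk, if_neg fun e => c ⟨_, e.1.choose_spec.symm⟩] at hk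
    simp at hk

variable [IsUltrametricDist C]

variable [CompleteSpace C] (h2 : ‖(pp : C)‖ = 1 / pp) (ht : ‖t‖ < 1)
include h2 ht

theorem Lm_add (hf : f ∈ Ig C) (hg : g ∈ Ig C) : Lm t (f + g) = Lm t f + Lm t g := by
  simp only [Lm, map_add, add_mul, add_div]
  rw [(sm_term h2 hf ht).tsum_add (sm_term h2 hg ht)]
  ring

theorem Lm_sub (hf : f ∈ Ig C) (hg : g ∈ Ig C) : Lm t (f - g) = Lm t f - Lm t g := by
  rw [sub_eq_add_neg, Lm_add h2 ht hf (neg_mem hg), Lm_neg, sub_eq_add_neg]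

omit [CompleteSpace C] in
theorem Lm_small {δ : ℝ} (h : 0 < δ) :
    ∀ᶠ N in atTop, ∀ f ∈ Ig C, X ^ N ∣ f → ‖Lm t f‖ ≤ δ := by
  obtain ⟨N, hN⟩ := eventually_atTop.1 ((sm_geo ht).tendsto_atTop_zero.eventually_le_const h)
  filter_upwards [eventually_ge_atTop (N + 1)] with m hm f hf e
  rw [X_pow_dvd_iff] at e
  rw [Lm, e 0 (by omega), zero_mul, zero_add]
  refine norm_tsum_le_of_forall_le fun k => ?_
  rcases lt_or_ge k m with c | c
  · simp [e k c, h.le]
  · exact (n_term h2 (hf k) k).trans (hN k (by omega))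

end Vale.Agent.P014U.Sb
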