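import Vale.Agent.P014U.Sb.Ev
import Vale.Agent.P014T.Sb.Cnt

/-! # P014U: linearity of the primitive, cyclotomic exponents of a transversal (helper42) -/

set_option autoImplicit false
set_option linter.all false

open Finset

noncomputable section

namespace Vale.Agent.P014U.Sb

export Vale.Agent.P014T.Sb (EE_ig cyc_E E_iff cyc_mul E_prim hm_iff cyc_onto wt_inj wt_eq wt_act
  wt_onto cyc_cop)

open Vale.Agent.P022 Vale.Agent.P022K Sy
open Vale.Agent.P014U.X4S.Ga (K O mem_O)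
open Vale.Agent.P014U.X4S.Aq
open Vale.Agent.P014U.X4F.Rc (hn hn_mul O_nat)
open Vale.Agent.P027M.M (Cyc)
open QT.Cu (E)

variable [Pp]

section lin

variable {C : Type} [NormedField C] [IsUltrametricDist C] [CharZero C] {L c : ℕ} [NeZero L] {ζ t : C}

variable [CompleteSpace C] (h2 : ‖(pp : C)‖ = 1 / pp) (ht : ‖t‖ < 1)
include h2 ht

omit [CharZero C] in
theorem Lm_sum {I : Type} {T : Finset I} {f : I → PowerSeries C} (h : ∀ i ∈ T, f i ∈ Ig C) :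
    Lm t (∑ i ∈ T, f i) = ∑ i ∈ T, Lm t (f i) := by
  induction T using Finset.cons_induction with
  | empty => exact Lm_zero
  | cons i T _ ih =>
    rw [forall_mem_cons] at h
    rw [sum_cons, sum_cons, Lm_add h2 ht h.1 (sum_mem h.2), ih h.2]

theorem lin (hζ : ζ ^ L = 1) {d N : ℕ} (cl : c.Coprime L) (dl : d.Coprime L) (u v : ℤ)
    {w : ZMod L → ℤ} (hw : ∀ x, w x ≠ 0 → IsUnit x) {T : Finset ((ZMod L × ZMod L) × ZMod L × ZMod L)}
    (hT : ∀ Y, Y ∈ T ↔ IsUnit (Y.1.1 * Y.2.2 - Y.1.2 * Y.2.1) ∧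
      N ∣ ((u : ZMod L) * Y.1.1 + v * Y.2.1).val) (nz : ∀ Y ∈ T, Y.1.1 ≠ 0 ∧ Y.2.1 ≠ 0) :
    Lm t (∑ Y, P014T.Rk.Ph N u v (fun x => (w x : C)) Y • (EE L ζ c Y.1 * EE L ζ d Y.2)) =
      ∑ Y ∈ T, w (Y.1.1 * Y.2.2 - Y.1.2 * Y.2.1) * Lm t (EE L ζ c Y.1 * EE L ζ d Y.2) := by
  have k {c : ℕ} (cl : c.Coprime L) {a : ZMod L} (ha : a ≠ 0) : c * a ≠ 0 :=
    ((ZMod.isUnit_iff_coprime c L).2 cl).mul_right_eq_zero.not.2 ha
  simp only [← Lm_int]
  rw [← Lm_sum h2 ht fun Y hY => mul_mem (intCast_mem _ _)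
    (mul_mem (EE_ig hζ (k cl (nz Y hY).1)) (EE_ig hζ (k dl (nz Y hY).2))),
    ← sum_subset T.subset_univ fun Y _ hY => ?_]
  · refine congrArg _ (sum_congr rfl fun Y hY => ?_)
    rw [P014T.Rk.Ph, if_pos ((hT Y).1 hY).2, Int.cast_smul_eq_zsmul, zsmul_eq_mul]
  · rw [P014T.Rk.Ph]
    split_ifs with e
    · rw [not_not.1 fun a => hY ((hT Y).2 ⟨hw _ a, e⟩), Int.cast_zero, zero_smul]
    · exact zero_smul _ _

end lin

theorem cyk {l : ℕ} {g : GQ} {k : ℤ} (hl : 0 < l) {n : ℕ} (d : pp ^ n ∣ l) (h : Cyc l g k) : hn n * (cy g - k) ∈ O := by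
  have : NeZero l := ⟨hl.ne'⟩
  obtain ⟨m, rfl⟩ := d
  obtain ⟨i, -, e⟩ := (E_prim hl).eq_pow_of_pow_eq_one (ξ := ex (hn n))
    (by rw [pow_mul, (ex_prim' n).pow_eq_one, one_pow])
  have := ex_cy g (hn n)
  rw [← e, map_pow, cyc_E.1 h, div_eq_mul_one_div (k : ℚ), P014T.Sg.E_zpow, ← zpow_natCast, zpow_comm,
    zpow_natCast, e, ← ex_int, eq_comm, ex_eq] at this
  exact O_of this (by ring)

end Vale.Agent.P014U.Sb
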