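import Vale.Agent.P014U.Sb.Col
import Vale.Agent.P014T.Sb.Ev

/-! # P014U: the symbol of two Siegel units is the primitive of a product of Eisenstein series (helper84) -/

set_option linter.all false

open Filter Topology Finset

noncomputable section

namespace Vale.Agent.P014U.Sb

export Vale.Agent.P014T.Sb (EE zt_eq val_c ee_dvd)

open Vale.Agent.P022 Vale.Agent.P022K Sy Sy.Fd
open Vale.Agent.P014U.X4S.Ga (K O mem_O)

variable [Pp] {C : Type} [NormedField C] [CharZero C] {L c : ℕ} {ζ : C}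

variable [NeZero L]

variable [IsAlgClosed C] [IsUltrametricDist C] [CompleteSpace C] {F : Fd C} {j : K →+* C} {σ : K}
  {X : Type} {α : GQ → X → X} {S : Finset X} {n M : ℕ} {τ : X → K} {t f g : X → C}

omit [NeZero L] [CharZero C] in
theorem Pr.lim (H : Hy F j σ) (d : Ds F.D α S) (tw : Tw F.D α S n τ) (ht : ∀ x ∈ S, ‖t x‖ < 1)
    {s : C} {a b : ℕ → X → C} {φ ψ : ℕ → X → PowerSeries C} {φ' ψ' : X → PowerSeries C}
    (h : ∀ k, Pr S t F j α n τ s (a k) (φ k) (b k) (ψ k)) (hf : f ∈ F.G α S) (hg : g ∈ F.G α S)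
    (la : ∀ x ∈ S, Tendsto (a · x) atTop (𝓝 (f x))) (lb : ∀ x ∈ S, Tendsto (b · x) atTop (𝓝 (g x)))
    (e : ∀ x ∈ S, ∀ k, PowerSeries.X ^ k ∣ φ' x - φ k x ∧ PowerSeries.X ^ k ∣ ψ' x - ψ k x) :
    Vl j (2 • F.sym α S n τ f g) (2 * s * ∑ x ∈ S, Lm (t x) (φ' x * ψ' x)) := by
  have nr {a : ℕ → X → C} {f} (hf : f ∈ F.G α S) (la : ∀ x ∈ S, Tendsto (a · x) atTop (𝓝 (f x))) :
      ∀ᶠ k in atTop, a k ∈ F.G α S → ∀ b ∈ F.G α S, F.sym α S n τ (a k) b = F.sym α S n τ f b := by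
    filter_upwards [(eventually_all_finset S).2 fun x hx =>
      (((la x hx).mul_const (f x)⁻¹).sub_const 1).norm.eventually_lt_const
        (show _ < (1 / pp : ℝ) ^ (n + 1) by simpa [(hf x hx).1] using pow_pos r_pos (n + 1))] with k hk ha b hb
    have := H.s5 _ α S n τ _ b d tw (mul_mem ha (G_inv hf)) hb hk
    rwa [ml d tw ha hb (G_inv hf), inv_l d tw hf hb, add_neg_eq_zero] at this
  have ig {p : PowerSeries C} {q : ℕ → PowerSeries C} (i : ∀ k, q k ∈ Ig C)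
      (e : ∀ k, PowerSeries.X ^ k ∣ p - q k) : p ∈ Ig C := fun k => by
    rw [sub_eq_zero.1 ((map_sub _ _ _).symm.trans
      (PowerSeries.X_pow_dvd_iff.1 (e (k + 1)) k k.lt_succ_self))]
    exact i _ _
  refine Vl.lim H.nj fun δ d0 => ?_
  obtain ⟨k, ⟨h1, h2⟩, h3⟩ := (((nr hf la).and (nr hg lb)).and ((eventually_all_finset S).2
    fun x hx => Lm_small H.two (ht x hx) (div_pos d0 (by positivity : 0 < ‖2 * s‖ + 1)))).exists
  obtain ⟨θ, p, q⟩ := (h k).vl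
  refine ⟨θ, ?_, by rw [← q, h1 (h k).f1 _ (h k).f2, anti d tw hf (h k).f2, h2 (h k).f2 _ hf,
    anti d tw hf hg]⟩
  rw [p, ← mul_sub, ← sum_sub_distrib, norm_mul]
  refine (mul_le_mul_of_nonneg_left (IsUltrametricDist.norm_sum_le_of_forall_le_of_nonneg
    (C := δ / (‖2 * s‖ + 1)) (by positivity) fun x hx => ?_) (norm_nonneg _)).trans ?_
  · have a := (Ig C).mul_mem ((h k).i1 x hx) ((h k).i2 x hx)
    have b := (Ig C).mul_mem (ig (fun k => (h k).i1 x hx) fun k => (e x hx k).1)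
      (ig (fun k => (h k).i2 x hx) fun k => (e x hx k).2)
    rw [← Lm_sub H.two (ht x hx) a b]
    exact h3 x hx _ (sub_mem a b) ((congrArg _ (by ring)).mp
      (((e x hx k).1.mul_right (-ψ' x)).sub ((e x hx k).2.mul_left (φ k x))))
  · rw [mul_div_assoc', div_le_iff₀ (by positivity)]
    linarith

/-- **the value of the symbol of two Siegel units** -/
theorem eval (H : Hy F j σ) (d : Ds F.D α S) (tw : Tw F.D α S n τ) (n0 : 0 < n)
    (hL : L = M * pp ^ n) (hζ : ζ ^ L = 1) {e : ℕ} (hc : ¬ pp ∣ c) (he : ¬ pp ∣ e)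
    {v v' : X → ZMod L × ZMod L} {ω : X → ℤ}
    (iv : ∀ g ∈ F.D, ∀ x ∈ S, (v (α g x)).1 = (v x).1 ∧ (v' (α g x)).1 = (v' x).1 ∧ ω (α g x) = ω x)
    (nz : ∀ x ∈ S, c * (v x).1 ≠ 0 ∧ e * (v' x).1 ≠ 0)
    (un : ∀ x ∈ S, IsUnit ((v x).1 * (v' x).2 - (v x).2 * (v' x).1))
    (lt : ∀ x ∈ S, ‖t x‖ < 1) (gd : ∀ x ∈ S, Gd (t x)) (q : (fun x => t x ^ L) ∈ F.G α S)
    (u : (fun x => ζ ^ (v x).2.val * t x ^ (v x).1.val) ∈ F.G α S)
    (u' : (fun x => ζ ^ (v' x).2.val * t x ^ (v' x).1.val) ∈ F.G α S)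
    (zr : Zr F S n τ fun x => ζ ^ (M * ((v x).1 * (v' x).2 - (v x).2 * (v' x).1).val))
    (hf : f ∈ F.G α S) (hg : g ∈ F.G α S)
    (lf : ∀ x ∈ S, Tendsto (ap c L (v x).1.val (ζ ^ (v x).2.val) (t x)) atTop (𝓝 (f x)))
    (lg : ∀ x ∈ S, Tendsto (ap e L (v' x).1.val (ζ ^ (v' x).2.val) (t x)) atTop (𝓝 (g x))) :
    Vl j (2 • F.sym α S n (fun x => ω x * τ x) f g) (2 * (j σ / (M * (pp ^ 2) ^ n)) *
      ∑ x ∈ S, ω x * Lm (t x) (EE L ζ c (v x) * EE L ζ e (v' x))) := by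
  classical
  let p := fun x => ((v x).1, (v' x).1, ω x)
  have ip (g) (hg : g ∈ F.D) (x) (hx : x ∈ S) : p (α g x) = p x :=
    Prod.ext (iv g hg x hx).1 (Prod.ext (iv g hg x hx).2.1 (iv g hg x hx).2.2)
  have tw' := tw.wt (w := fun x => ω x) (fun _ _ => O_z _) fun g hg x hx => by
    rw [(iv g hg x hx).2.2]
  have z0 : ζ ≠ 0 := fun c => by simp [c, NeZero.ne L] at hζ
  rw [sym_fib d tw' hf hg p (S.image p) (fun x => mem_image_of_mem p) ip,
    ← sum_fiberwise_of_maps_to (fun x => mem_image_of_mem p), smul_sum, mul_sum]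
  refine Vl.sum fun ⟨a, a', m⟩ hi => ?_
  obtain ⟨x0, h0, e0⟩ := mem_image.1 hi
  set T := {x ∈ S | p x = (a, a', m)}
  have s : T ⊆ S := filter_subset _ _
  have k (x) (hx : x ∈ T) : (v x).1 = a ∧ (v' x).1 = a' ∧ ω x = m := by
    simpa [p] using (mem_filter.1 hx).2
  have k0 := k x0 (mem_filter.2 ⟨h0, e0⟩)
  have d' := d.sub s fun g hg x hx => mem_filter.2
    ⟨d.mem g hg x (s hx), (ip g hg x (s hx)).trans (mem_filter.1 hx).2⟩
  have Y : Cx T t (fun x => ζ ^ (v x).2.val) (fun x => ζ ^ (v' x).2.val) L a.val a'.val F α n τ M :=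
    ⟨d', tw.sub s, n0, Nat.pos_of_ne_zero fun c => NeZero.ne L (by rw [hL, c, zero_mul]), hL,
      fun x hx => lt x (s hx), fun x hx => gd x (s hx), G_sub q s,
      G_congr d' (G_sub u s) fun x hx => by rw [(k x hx).1],
      G_congr d' (G_sub u' s) fun x hx => by rw [(k x hx).2.1],
      fun x _ => by simp only [pow_right_comm ζ _ L, hζ, one_pow, and_self], fun x hx => by
        have := zr x (s hx)
        simp only at this ⊢
        rwa [mul_comm M, pow_mul, eq_div_of_mul_eq (pow_ne_zero a'.val (pow_ne_zero (v x).2.val z0))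
          (show ζ ^ ((v x).1 * (v' x).2 - (v x).2 * (v' x).1).val * _ =
            (ζ ^ (v' x).2.val) ^ a.val from by
            rw [← pow_mul, ← pow_mul, ← pow_add]
            exact zt_eq hζ (by simp [(k x hx).1, (k x hx).2.1, mul_comm]))] at this, by
      obtain ⟨y, hy⟩ := (un x0 h0).exists_right_inv
      obtain ⟨w, hw⟩ := (ZMod.intCast_zmod_eq_zero_iff_dvd (1 - (((v' x0).2 * y).val * a.val +
        (-(v x0).2 * y).val * a'.val)) L).1 (by
          rw [k0.1, k0.2.1] at hy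
          push_cast [ZMod.natCast_zmod_val]
          linear_combination -hy)
      exact ⟨((v' x0).2 * y).val, (-(v x0).2 * y).val, w, by linear_combination -hw⟩⟩
  have c0 : c * a.val % L ≠ 0 := by
    rw [← val_c, ZMod.val_ne_zero, ← k0.1]; exact (nz x0 h0).1
  have c1 : e * a'.val % L ≠ 0 := by
    rw [← val_c, ZMod.val_ne_zero, ← k0.2.1]; exact (nz x0 h0).2
  refine ((Pr.lim H d' Y.tw Y.lt (Y.col H hc c0 a.val_lt he c1 a'.val_lt) (G_sub hf s) (G_sub hg s)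
    (fun x hx => (k x hx).1 ▸ lf x (s hx)) (fun x hx => (k x hx).2.1 ▸ lg x (s hx))
    (φ' := fun x => EE L ζ c (v x)) (ψ' := fun x => EE L ζ e (v' x)) fun x hx i =>
      ⟨(k x hx).1 ▸ ee_dvd hζ (nz x (s hx)).1 i,
        (k x hx).2.1 ▸ ee_dvd hζ (nz x (s hx)).2 i⟩).zsmul m).of ?_ ?_
  · rw [two_nsmul (F.sym α T n τ f g), zsmul_add, ← two_nsmul, ← sym_int d' Y.tw (G_sub hf s) (G_sub hg s)]
    exact congrArg _ (sym_congr d' (Y.tw.wt (w := fun _ => m) (fun _ _ => O_z _) fun _ _ _ _ => rfl)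
      (G_sub hf s) (G_sub hg s) (fun _ _ => rfl) (fun _ _ => rfl) (tw'.sub s) fun x hx => by
        simp [(k x hx).2.2])
  · rw [sum_congr rfl fun x hx => by rw [(k x hx).2.2], ← mul_sum]
    ring

end Vale.Agent.P014U.Sb
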