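import Vale.Agent.P014U.Sb.Ev
import Vale.Agent.P014U.Ah.Val
import Vale.Agent.P014T.Sb.Fc

/-! # P014U: the symbol of two Siegel units on the Tate disc (helper42) -/

set_option autoImplicit false
set_option linter.all false

open Filter Topology Finset NumberField

noncomputable section

namespace Vale.Agent.P014U.Sb

export Vale.Agent.P014T.Sb (sv_lim)

open Vale.Agent.P022 Vale.Agent.P022K Sy Sy.Fd
open Vale.Agent.P022D.W (dec)
open X4S.Ga (K O mem_O)
open X4F.Rc (hn mq)
open Ah (Ind am)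

variable [Pp]

theorem hy {ι : Qb →+* ℂ_[pp]} {P : Ideal (𝓞 Qb)} (h : Ind ι P) : Hy h.fd am 1 := by
  refine ⟨Ah.nrm_am, fun _ => h.ro_fx, fun X α S n τ a b d tw ha hb e =>
    (near (v := NormedField.toAbsoluteValue ℂ_[pp]) d tw ha hb IsUltrametricDist.norm_add_le_max
      (fun g _ x _ => h.ro_nrm g x) fun x hx => (e x hx).trans_eq (by rw [← Ah.two_C]; rfl)).1,
    fun X α S n τ u ζ t n0 d tw hu _ hz ht => ?_⟩
  choose! ε hε using hz
  have m (x) (hx : x ∈ S) : ‖ε x‖ = 1 := by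
    have a := (hε x hx).2.2
    rw [mem_O, norm_mul, hn, norm_inv, norm_pow, k_two, inv_mul_le_one₀ (pow_pos r_inv0 _),
      norm_sub_rev] at a
    have := n_one (a.trans_lt (pow_lt_one₀ r_inv0.le r_inv n0.ne'))
    rw [norm_mul] at this
    exact le_antisymm (hε x hx).1 (this ▸ mul_le_of_le_one_right (norm_nonneg _) (tw.mem x hx))
  have s3 : h.fd.sym α S n τ u (h.fd.ze n ε) = mq (hn (n + n) * Lg t) :=
    h.s3' d tw hu m (fun x hx => (hε x hx).2.2) ht.symm
  rw [cg d tw hu (ze_mem (tw_eps d tw (fun x hx => (hε x hx).1) fun x hx => (hε x hx).2.2))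
    (fun _ _ => rfl) fun x hx => (hε x hx).2.1, s3, hn, pow_add, ← mul_pow, one_mul, sq,
    div_eq_inv_mul]

end Vale.Agent.P014U.Sb
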