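import Vale.Agent.P014U.Base
import Vale.Agent.P014T.Sb.Lg

/-! # P014U: the logarithm on elements with a power in `pp ^ ℤ (1 + m)` (helper84) -/

set_option linter.all false

open Filter Topology IsUltrametricDist

noncomputable section

namespace Vale.Agent.P014U.Sb

export Vale.Agent.P014T.Sb (lgs lgs_one nadd nadd' n_one ne_of_near near_mul near_pow near_prod
  sm_geo)

variable [Pp] {C : Type} [NormedField C]

/-- elements with a power in `pp ^ ℤ (1 + m)` -/
def Gd (x : C) : Prop := ∃ p : ℕ × ℤ, 0 < p.1 ∧ ‖1 - x ^ p.1 / (pp : C) ^ p.2‖ < 1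

open Classical in
/-- the logarithm with `Lg pp = 0` -/
def Lg (x : C) : C :=
  if h : Gd x then lgs (x ^ h.choose.1 / (pp : C) ^ h.choose.2) / h.choose.1 else 0

theorem r_one : (1 : ℝ) < pp := by exact_mod_cast one_lt

theorem r_pos : (0 : ℝ) < pp := one_pos.trans r_one

theorem r_inv : (1 : ℝ) / pp < 1 := (div_lt_one r_pos).2 r_one

theorem r_inv0 : (0 : ℝ) < 1 / pp := one_div_pos.2 r_pos

theorem c_ne {F : Type} [Field F] [CharZero F] : (pp : F) ≠ 0 := Nat.cast_ne_zero.2 pp_ne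

variable [IsUltrametricDist C] {x y : C}

variable (h2 : ‖(pp : C)‖ = 1 / pp)
include h2

theorem n_odd {m : ℕ} (h : ¬ pp ∣ m) : ‖(m : C)‖ = 1 := by
  obtain ⟨a, b, e⟩ := Nat.isCoprime_iff_coprime.2 ((Nat.Prime.coprime_iff_not_dvd pp_prime).2 h)
  have e' : (1 : C) - b * m = a * pp := by
    have := congrArg (Int.cast (R := C)) e
    push_cast at this
    linear_combination -this
  have := n_one (x := (b * m : C)) (by
    rw [e', norm_mul, h2]
    exact (mul_le_of_le_one_left r_inv0.le (norm_intCast_le_one C a)).trans_lt r_inv)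
  rw [norm_mul] at this
  exact le_antisymm (norm_natCast_le_one C m)
    (this ▸ mul_le_of_le_one_left (norm_nonneg _) (norm_intCast_le_one C b))

theorem n_inv (k : ℕ) : ‖(k : C)⁻¹‖ ≤ k := by
  rcases k.eq_zero_or_pos with rfl | hk
  · simp
  obtain ⟨a, m, hm, rfl⟩ := Nat.exists_eq_pow_mul_and_not_dvd hk.ne' pp one_lt.ne'
  push_cast
  rw [norm_inv, norm_mul, norm_pow, h2, n_odd h2 hm, mul_one, one_div, inv_pow, inv_inv]
  exact le_mul_of_one_le_right (by positivity) (by exact_mod_cast Nat.pos_of_mul_pos_left hk)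

theorem n_term {c : C} (hc : ‖c‖ ≤ 1) (k : ℕ) : ‖c * x ^ k / k‖ ≤ k * ‖x‖ ^ k := by
  rw [div_eq_mul_inv, norm_mul, norm_mul, norm_pow, mul_comm]
  exact mul_le_mul (n_inv h2 k) (mul_le_of_le_one_left (by positivity) hc) (by positivity)
    (by positivity)

omit [IsUltrametricDist C] in
theorem two_lim : Tendsto (fun a : ℕ => (pp : C) ^ a) atTop (𝓝 0) :=
  tendsto_pow_atTop_nhds_zero_of_norm_lt_one (by rw [h2]; exact r_inv)

variable [CompleteSpace C]

theorem sm_term {c : ℕ → C} (hc : ∀ k, ‖c k‖ ≤ 1) (h : ‖x‖ < 1) :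
    Summable fun k : ℕ => c k * x ^ k / k :=
  (sm_geo h).of_norm_bounded fun k => n_term h2 (hc k) k

variable [CharZero C]

omit [IsUltrametricDist C] [CompleteSpace C] in
theorem ch_lim (k : ℕ) :
    Tendsto (fun a : ℕ => ((pp ^ a - 1).choose k : C)) atTop (𝓝 ((-1) ^ k)) := by
  induction k with
  | zero => simp
  | succ k ih =>
    have k0 : (k + 1 : C) ≠ 0 := by exact_mod_cast k.succ_ne_zero
    have := (ih.mul (((two_lim h2).sub_const 1).sub_const (k : C))).div_const (k + 1)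
    rw [show (-1) ^ k * (0 - 1 - k) / (k + 1) = (-1 : C) ^ (k + 1) by field_simp; ring] at this
    refine this.congr' ((eventually_ge_atTop k).mono fun a ha => ?_)
    have l : k ≤ pp ^ a - 1 := by have := @Nat.lt_pow_self a pp one_lt; omega
    have e := congrArg (Nat.cast (R := C)) ((pp ^ a - 1).choose_succ_right_eq k)
    push_cast [Nat.cast_sub l, Nat.cast_sub (Nat.one_le_pow a pp pp_pos)] at e
    rw [← e, mul_div_cancel_right₀ _ k0]

theorem lgs_lim (h : ‖1 - x‖ < 1) :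
    Tendsto (fun a : ℕ => (x ^ pp ^ a - 1) / (pp : C) ^ a) atTop (𝓝 (lgs x)) := by
  have := tendsto_tsum_of_dominated_convergence (𝓕 := atTop) (sm_geo h)
    (f := fun a k : ℕ => ((pp ^ a - 1).choose (k - 1) : C) * (-1) ^ k * (1 - x) ^ k / k)
    (g := fun k => -((1 - x) ^ k / k)) (fun k => ?_) (.of_forall fun a k => n_term h2 ?_ k)
  · rw [tsum_neg] at this
    refine this.congr fun a => ?_
    obtain ⟨N, e⟩ : ∃ N, pp ^ a = N + 1 := ⟨pp ^ a - 1, by have := Nat.one_le_pow a pp pp_pos; omega⟩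
    have N0 : (N + 1 : C) ≠ 0 := by exact_mod_cast N.succ_ne_zero
    rw [show (pp : C) ^ a = N + 1 by exact_mod_cast e, e, tsum_eq_sum (s := Finset.range (N + 1 + 1))
      fun k hk => by rw [Nat.choose_eq_zero_of_lt (by simp at hk ⊢; omega)]; simp,
      show x ^ (N + 1) = (-(1 - x) + 1) ^ (N + 1) by ring, add_pow, Finset.sum_range_succ',
      Finset.sum_range_succ' _ (N + 1), eq_div_iff N0]
    simp only [Nat.cast_zero, div_zero, add_zero, one_pow, mul_one, pow_zero, Nat.choose_zero_right,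
      Nat.cast_one, add_sub_cancel_right, Finset.sum_mul, Nat.add_sub_cancel]
    refine Finset.sum_congr rfl fun k _ => ?_
    have k0 : (k + 1 : C) ≠ 0 := by exact_mod_cast k.succ_ne_zero
    have e := congrArg (Nat.cast (R := C)) (N.add_one_mul_choose_eq k)
    push_cast at e ⊢
    rw [neg_pow (1 - x)]
    field_simp
    linear_combination (1 - x) ^ (k + 1) * e
  · cases k with
    | zero => simp
    | succ k =>
      have := (((ch_lim h2 k).mul_const ((-1) ^ (k + 1))).mul_const ((1 - x) ^ (k + 1))).div_const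
        ((k + 1 : ℕ) : C)
      rwa [← pow_add, (show Odd (k + (k + 1)) from ⟨k, by ring⟩).neg_one_pow, neg_one_mul,
        neg_div] at this
  · rw [norm_mul, norm_pow, norm_neg, norm_one, one_pow, mul_one]
    exact norm_natCast_le_one C _

theorem lgs_mul (h : ‖1 - x‖ < 1) (k : ‖1 - y‖ < 1) : lgs (x * y) = lgs x + lgs y := by
  have t (a : ℕ) : (pp : C) ^ a ≠ 0 := pow_ne_zero _ c_ne
  have e := ((lgs_lim h2 h).mul (((lgs_lim h2 k).mul (two_lim h2)).add_const 1)).add (lgs_lim h2 k)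
  rw [mul_zero, zero_add, mul_one] at e
  exact tendsto_nhds_unique (lgs_lim h2 (near_mul h k)) (e.congr fun a => by
    rw [mul_pow, div_mul_cancel₀ _ (t a)]; ring)

theorem lgs_pow (h : ‖1 - x‖ < 1) (n : ℕ) : lgs (x ^ n) = n * lgs x := by
  induction n with
  | zero => simp [lgs_one]
  | succ n ih => rw [pow_succ, lgs_mul h2 (near_pow h n) h, ih]; push_cast; ring

theorem Lg_spec {N : ℕ} {k : ℤ} (h0 : 0 < N) (h : ‖1 - x ^ N / (pp : C) ^ k‖ < 1) :
    N * Lg x = lgs (x ^ N / (pp : C) ^ k) := by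
  have g : Gd x := ⟨(N, k), h0, h⟩
  obtain ⟨p0, p1⟩ := g.choose_spec
  rw [Lg, dif_pos g]
  generalize g.choose.1 = N', g.choose.2 = k' at p0 p1
  have N0 : (N' : C) ≠ 0 := Nat.cast_ne_zero.2 p0.ne'
  have a := n_one (near_pow h N')
  have b := n_one (near_pow p1 N)
  rw [div_pow, ← pow_mul, ← zpow_natCast (_ ^ _ : C), ← zpow_mul, norm_div, div_eq_one_iff_eq
    (norm_ne_zero_iff.2 (zpow_ne_zero _ c_ne)), norm_zpow, h2] at a b
  rw [mul_comm, a, zpow_right_inj₀ r_inv0 r_inv.ne] at b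
  have e : (x ^ N' / (pp : C) ^ k') ^ N = (x ^ N / (pp : C) ^ k) ^ N' := by
    simp only [div_pow, ← pow_mul, ← zpow_natCast ((pp : C) ^ (_ : ℤ)), ← zpow_mul, b, mul_comm N]
  rw [mul_div_assoc', ← lgs_pow h2 p1, e, lgs_pow h2 h, mul_div_cancel_left₀ _ N0]

theorem Lg_near (h : ‖1 - x‖ < 1) : Gd x ∧ Lg x = lgs x :=
  ⟨⟨(1, 0), one_pos, by simpa using h⟩, by
    simpa using Lg_spec h2 (x := x) (k := 0) one_pos (by simpa using h)⟩

theorem Lg_mul (h : Gd x) (k : Gd y) : Gd (x * y) ∧ Lg (x * y) = Lg x + Lg y := by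
  obtain ⟨⟨N, a⟩, p0, p1⟩ := h
  obtain ⟨⟨N', b⟩, q0, q1⟩ := k
  have e : (x * y) ^ (N * N') / (pp : C) ^ (a * N' + b * N) =
      (x ^ N / (pp : C) ^ a) ^ N' * (y ^ N' / (pp : C) ^ b) ^ N := by
    simp only [div_pow, ← pow_mul, ← zpow_natCast ((pp : C) ^ (_ : ℤ)), ← zpow_mul, mul_comm N' N,
      zpow_add₀ (c_ne (F := C)), mul_pow, div_mul_div_comm]
  have n := e ▸ near_mul (near_pow p1 N') (near_pow q1 N)
  refine ⟨⟨(_, _), mul_pos p0 q0, n⟩, mul_left_cancel₀ (Nat.cast_ne_zero.2 (mul_pos p0 q0).ne') ?_⟩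
  rw [Lg_spec h2 (mul_pos p0 q0) n, e, lgs_mul h2 (near_pow p1 _) (near_pow q1 _), lgs_pow h2 p1,
    lgs_pow h2 q1, ← Lg_spec h2 p0 p1, ← Lg_spec h2 q0 q1]
  push_cast
  ring

theorem Lg_one : Gd (1 : C) ∧ Lg (1 : C) = 0 := by
  simpa [lgs_one] using Lg_near h2 (x := 1) (by simp)

theorem Lg_prod {ι : Type} {T : Finset ι} {f : ι → C} (h : ∀ i ∈ T, Gd (f i)) :
    Gd (∏ i ∈ T, f i) ∧ Lg (∏ i ∈ T, f i) = ∑ i ∈ T, Lg (f i) := by
  induction T using Finset.cons_induction with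
  | empty => simpa using Lg_one h2
  | cons i T _ ih =>
    rw [Finset.forall_mem_cons] at h
    rw [Finset.prod_cons, Finset.sum_cons, ← (ih h.2).2]
    exact Lg_mul h2 h.1 (ih h.2).1

theorem Lg_pow (h : Gd x) (n : ℕ) : Gd (x ^ n) ∧ Lg (x ^ n) = n * Lg x := by
  simpa using Lg_prod h2 (T := Finset.range n) (f := fun _ => x) fun _ _ => h

omit h2 [IsUltrametricDist C] [CompleteSpace C] [CharZero C] in
theorem Gd.root {n : ℕ} (h0 : 0 < n) (h : Gd (x ^ n)) : Gd x :=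
  let ⟨p, p0, p1⟩ := h
  ⟨(n * p.1, p.2), mul_pos h0 p0, by rwa [pow_mul]⟩

theorem Lg_two : Gd (pp : C) ∧ Lg (pp : C) = 0 :=
  ⟨⟨(1, 1), one_pos, by simp [pp_ne]⟩, by
    simpa [lgs_one, pp_ne] using Lg_spec h2 (x := (pp : C)) (k := 1) one_pos (by simp [pp_ne])⟩

omit h2

/-- every non zero `pp`-adic number is good -/
theorem gd_padic {t : ℚ_[pp]} (h : t ≠ 0) : Gd t := by
  have n : ‖t / (pp : ℚ_[pp]) ^ t.valuation‖ = 1 := by
    have := Padic.norm_p_zpow (p := pp) t.valuation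
    rw [norm_div, Padic.norm_eq_zpow_neg_valuation h,
      div_eq_one_iff_eq (norm_ne_zero_iff.2 (zpow_ne_zero _ c_ne))]
    exact this.symm
  refine ⟨(pp - 1, t.valuation * (pp - 1 : ℕ)), Nat.sub_pos_of_lt one_lt, ?_⟩
  let u : ℤ_[pp] := ⟨_, n.le⟩
  have k : ¬ ‖u‖ < 1 := fun k => k.ne n
  rw [zpow_mul, zpow_natCast, ← div_pow]
  change ‖1 - u ^ (pp - 1)‖ < 1
  rw [← PadicInt.mem_nonunits, ← IsLocalRing.mem_maximalIdeal, ← PadicInt.ker_toZMod,
    RingHom.mem_ker] at k ⊢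
  rw [map_sub, map_one, map_pow, ZMod.pow_card_sub_one_eq_one k, sub_self]

variable {C' : Type} [NormedField C'] [IsUltrametricDist C'] [CompleteSpace C'] [CharZero C']
  (j : C →+* C') (hj : ∀ x, ‖j x‖ = ‖x‖)
include hj h2

omit [IsUltrametricDist C'] [CompleteSpace C'] [CharZero C'] [CharZero C] in
theorem lgs_map (h : ‖1 - x‖ < 1) : j (lgs x) = lgs (j x) := by
  have s : Summable fun k : ℕ => (1 - x) ^ k / k := by
    simpa using sm_term h2 (c := fun _ => 1) (by simp) h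
  rw [lgs, map_neg, s.map_tsum j (AddMonoidHomClass.isometry_of_norm j hj).continuous]
  simp [lgs]

theorem Lg_map (h : Gd x) : Gd (j x) ∧ j (Lg x) = Lg (j x) := by
  obtain ⟨⟨N, a⟩, p0, p1⟩ := h
  have e : j (x ^ N / (pp : C) ^ a) = j x ^ N / (pp : C') ^ a := by simp
  have n : ‖1 - j x ^ N / (pp : C') ^ a‖ < 1 := by rwa [← e, ← map_one j, ← map_sub, hj]
  refine ⟨⟨(N, a), p0, n⟩, mul_left_cancel₀ (Nat.cast_ne_zero.2 p0.ne') ?_⟩
  rw [Lg_spec (by rw [← h2, ← hj, map_natCast]) p0 n, ← e, ← lgs_map h2 j hj p1, ← Lg_spec h2 p0 p1,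
    map_mul, map_natCast]

end Vale.Agent.P014U.Sb
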